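import Mathlib
import Vale.Agent.Lib.P194.H86.CentralP

/-!
# P194, job N (copy by helper96): the augmentation ideal of the group algebra of a finite
`p`-group in characteristic `p` is nilpotent

`aug_list_prod_eq_zero`: there is `B` such that every product of at least `B` factors
`single q 1 - 1` vanishes in `R[P]`.
-/

namespace Vale.Agent.Lib.P194.H96

universe u v

section Kernel

variable {R : Type*} [Ring R] {G : Type*} [Group G]

/-- `single (z ^ i) 1 - 1` is a multiple of `single z 1 - 1` (for central `z`). -/
theorem single_pow_sub_one (z : G) (hz : ∀ g : G, z * g = g * z) (i : ℕ) :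
    ∃ y : MonoidAlgebra R G, MonoidAlgebra.single (z ^ i) (1 : R) - 1
      = (MonoidAlgebra.single z (1 : R) - 1) * y := by
  induction i with
  | zero => exact ⟨0, by simp [MonoidAlgebra.one_def]⟩
  | succ i ih =>
    obtain ⟨y, hy⟩ := ih
    refine ⟨MonoidAlgebra.single z (1 : R) * y + 1, ?_⟩
    have h1 : MonoidAlgebra.single (z ^ (i + 1)) (1 : R)
        = MonoidAlgebra.single z (1 : R) * MonoidAlgebra.single (z ^ i) (1 : R) := by
      rw [MonoidAlgebra.single_mul_single, one_mul, pow_succ']
    have hc := Vale.Agent.Lib.P194.H86.single_sub_one_central (R := R) z hz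
    have h2 : MonoidAlgebra.single z (1 : R) * ((MonoidAlgebra.single z (1 : R) - 1) * y)
        = (MonoidAlgebra.single z (1 : R) - 1) * (MonoidAlgebra.single z (1 : R) * y) := by
      rw [← mul_assoc, ← hc (MonoidAlgebra.single z (1 : R)), mul_assoc]
    calc MonoidAlgebra.single (z ^ (i + 1)) (1 : R) - 1
        = MonoidAlgebra.single z (1 : R) * (MonoidAlgebra.single (z ^ i) (1 : R) - 1)
          + (MonoidAlgebra.single z (1 : R) - 1) := by rw [h1]; noncomm_ring
      _ = MonoidAlgebra.single z (1 : R) * ((MonoidAlgebra.single z (1 : R) - 1) * y)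
          + (MonoidAlgebra.single z (1 : R) - 1) := by rw [hy]
      _ = (MonoidAlgebra.single z (1 : R) - 1) * (MonoidAlgebra.single z (1 : R) * y + 1) := by
          rw [h2]; noncomm_ring

/-- The kernel of `R[G] → R[G ⧸ ⟨z⟩]` is generated by `single z 1 - 1` (`z` central, `G`
finite). -/
theorem exists_factor_of_mapDomain_eq_zero [Finite G] (z : G) (hz : ∀ g : G, z * g = g * z)
    [(Subgroup.zpowers z).Normal] (x : MonoidAlgebra R G)
    (hx : MonoidAlgebra.mapDomain
      (fun g : G => (QuotientGroup.mk g : G ⧸ Subgroup.zpowers z)) x = 0) :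
    ∃ y : MonoidAlgebra R G, x = (MonoidAlgebra.single z (1 : R) - 1) * y := by
  have key : ∀ y : MonoidAlgebra R G, ∃ y' : MonoidAlgebra R G,
      y - MonoidAlgebra.mapDomain
        (fun g : G => Quotient.out (QuotientGroup.mk g : G ⧸ Subgroup.zpowers z)) y
        = (MonoidAlgebra.single z (1 : R) - 1) * y' := by
    intro y
    induction y using MonoidAlgebra.induction_linear with
    | zero => exact ⟨0, by rw [MonoidAlgebra.mapDomain_zero, sub_zero, mul_zero]⟩
    | add y₁ y₂ h₁ h₂ =>
      obtain ⟨a₁, ha₁⟩ := h₁
      obtain ⟨a₂, ha₂⟩ := h₂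
      refine ⟨a₁ + a₂, ?_⟩
      rw [MonoidAlgebra.mapDomain_add, mul_add, ← ha₁, ← ha₂]
      abel
    | single g r =>
      rw [MonoidAlgebra.mapDomain_single]
      set s : G := Quotient.out (QuotientGroup.mk g : G ⧸ Subgroup.zpowers z) with hs
      have hmk : (QuotientGroup.mk s : G ⧸ Subgroup.zpowers z) = QuotientGroup.mk g :=
        Quotient.out_eq _
      have hz1 : s⁻¹ * g ∈ Subgroup.zpowers z := QuotientGroup.eq.mp hmk
      have hz2 : g * s⁻¹ ∈ Subgroup.zpowers z :=
        (Subgroup.Normal.mem_comm_iff inferInstance).mp hz1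
      have hz3 : g * s⁻¹ ∈ Submonoid.powers z :=
        (isOfFinOrder_of_finite z).mem_powers_iff_mem_zpowers.mpr hz2
      obtain ⟨i, hi⟩ := (Submonoid.mem_powers_iff _ _).mp hz3
      obtain ⟨y0, hy0⟩ := single_pow_sub_one (R := R) z hz i
      rw [hi] at hy0
      have e : MonoidAlgebra.single g r - MonoidAlgebra.single s r
          = (MonoidAlgebra.single (g * s⁻¹) (1 : R) - 1) * MonoidAlgebra.single s r := by
        rw [sub_mul, one_mul, MonoidAlgebra.single_mul_single, one_mul, inv_mul_cancel_right]
      refine ⟨y0 * MonoidAlgebra.single s r, ?_⟩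
      rw [e, hy0, mul_assoc]
  obtain ⟨y', hy'⟩ := key x
  rw [Vale.Agent.Lib.P194.H86.mapDomain_out_eq_zero (Subgroup.zpowers z) x hx, sub_zero] at hy'
  exact ⟨y', hy'⟩

end Kernel

section Main

/-- Auxiliary form: induction on a bound for the cardinality. -/
theorem aug_aux (p : ℕ) [Fact p.Prime] (R : Type u) [Ring R] [CharP R p] :
    ∀ (n : ℕ) (P : Type v) [Group P] [Finite P], IsPGroup p P → Nat.card P ≤ n →
      ∃ B : ℕ, ∀ l : List P, B ≤ l.length →
        (l.map (fun q => (MonoidAlgebra.single q (1 : R) - 1 : MonoidAlgebra R P))).prod = 0 := by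
  intro n
  induction n with
  | zero =>
    intro P _ _ _ hcard
    have := Nat.card_pos (α := P)
    omega
  | succ n ih =>
    intro P _ _ hP hcard
    rcases subsingleton_or_nontrivial P with hs | hnt
    · refine ⟨1, ?_⟩
      intro l hl
      cases l with
      | nil => simp at hl
      | cons q l' =>
        have hq : q = 1 := Subsingleton.elim _ _
        simp [hq, MonoidAlgebra.one_def]
    · have hcn : Nontrivial (Subgroup.center P) := hP.center_nontrivial
      obtain ⟨⟨z, hzc⟩, hz1⟩ := exists_ne (1 : Subgroup.center P)
      have hz1' : z ≠ 1 := fun h => hz1 (Subtype.ext h)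
      have hz : ∀ g : P, z * g = g * z := fun g => ((Subgroup.mem_center_iff.mp hzc) g).symm
      have hZle : Subgroup.zpowers z ≤ Subgroup.center P := Subgroup.zpowers_le.mpr hzc
      have hZn : (Subgroup.zpowers z).Normal := ⟨fun x hx g => by
        have h1 := Subgroup.mem_center_iff.mp (hZle hx) g
        rw [h1, mul_inv_cancel_right]
        exact hx⟩
      have hcardQ : Nat.card (P ⧸ Subgroup.zpowers z) ≤ n := by
        have h1 : Nat.card P = Nat.card (P ⧸ Subgroup.zpowers z) * Nat.card (Subgroup.zpowers z) :=
          Subgroup.card_eq_card_quotient_mul_card_subgroup (Subgroup.zpowers z)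
        have h2 : 1 < Nat.card (Subgroup.zpowers z) :=
          (Subgroup.zpowers z).one_lt_card_iff_ne_bot.mpr (Subgroup.zpowers_ne_bot.mpr hz1')
        have h3 : 0 < Nat.card (P ⧸ Subgroup.zpowers z) := Nat.card_pos
        nlinarith
      obtain ⟨B', hB'⟩ := ih (P ⧸ Subgroup.zpowers z) (hP.to_quotient (Subgroup.zpowers z)) hcardQ
      obtain ⟨k, hk⟩ := hP z
      obtain ⟨N, hN⟩ := Vale.Agent.Lib.P194.H86.single_sub_one_nilpotent (R := R) p z k hk
      have hc := Vale.Agent.Lib.P194.H86.single_sub_one_central (R := R) z hz
      -- one block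
      have step1 : ∀ l : List P, B' ≤ l.length → ∃ y : MonoidAlgebra R P,
          (l.map (fun q => (MonoidAlgebra.single q (1 : R) - 1 : MonoidAlgebra R P))).prod
            = (MonoidAlgebra.single z (1 : R) - 1) * y := by
        intro l hl
        apply exists_factor_of_mapDomain_eq_zero z hz
        have h0 := hB' (l.map (fun q : P => (QuotientGroup.mk q : P ⧸ Subgroup.zpowers z)))
          (by rw [List.length_map]; exact hl)
        have h1 : MonoidAlgebra.mapDomainRingHom R (QuotientGroup.mk' (Subgroup.zpowers z))
            ((l.map (fun q => (MonoidAlgebra.single q (1 : R) - 1 : MonoidAlgebra R P))).prod)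
            = ((l.map (fun q : P => (QuotientGroup.mk q : P ⧸ Subgroup.zpowers z))).map
              (fun q' => (MonoidAlgebra.single q' (1 : R) - 1 :
                MonoidAlgebra R (P ⧸ Subgroup.zpowers z)))).prod := by
          rw [map_list_prod, List.map_map, List.map_map]
          congr 1
          apply List.map_congr_left
          intro q _
          simp only [Function.comp_apply, map_sub, map_one]
          rw [MonoidAlgebra.mapDomainRingHom_apply, MonoidAlgebra.mapDomain_single]
          rfl
        rw [h0] at h1
        exact h1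
      -- k blocks
      have step2 : ∀ (m : ℕ) (l : List P), m * B' ≤ l.length → ∃ y : MonoidAlgebra R P,
          (l.map (fun q => (MonoidAlgebra.single q (1 : R) - 1 : MonoidAlgebra R P))).prod
            = (MonoidAlgebra.single z (1 : R) - 1) ^ m * y := by
        intro m
        induction m with
        | zero =>
          intro l _
          exact ⟨_, by rw [pow_zero, one_mul]⟩
        | succ m ihm =>
          intro l hl
          have hlen1 : B' ≤ (l.take B').length := by
            rw [List.length_take]
            have : B' ≤ l.length := by nlinarith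
            omega
          have hlen2 : m * B' ≤ (l.drop B').length := by
            rw [List.length_drop]
            have : (m + 1) * B' = m * B' + B' := by ring
            omega
          obtain ⟨y1, hy1⟩ := step1 _ hlen1
          obtain ⟨y2, hy2⟩ := ihm _ hlen2
          refine ⟨y1 * y2, ?_⟩
          have hsplit : l = l.take B' ++ l.drop B' := (List.take_append_drop B' l).symm
          have hcomm : y1 * (MonoidAlgebra.single z (1 : R) - 1) ^ m
              = (MonoidAlgebra.single z (1 : R) - 1) ^ m * y1 := by
            have hcm : Commute (MonoidAlgebra.single z (1 : R) - 1) y1 := hc y1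
            exact (hcm.pow_left m).eq.symm
          calc (l.map (fun q => (MonoidAlgebra.single q (1 : R) - 1 : MonoidAlgebra R P))).prod
              = ((l.take B').map
                  (fun q => (MonoidAlgebra.single q (1 : R) - 1 : MonoidAlgebra R P))).prod
                * ((l.drop B').map
                  (fun q => (MonoidAlgebra.single q (1 : R) - 1 : MonoidAlgebra R P))).prod := by
                rw [← List.prod_append, ← List.map_append, ← hsplit]
            _ = (MonoidAlgebra.single z (1 : R) - 1) * y1
                * ((MonoidAlgebra.single z (1 : R) - 1) ^ m * y2) := by rw [hy1, hy2]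
            _ = (MonoidAlgebra.single z (1 : R) - 1)
                * (y1 * (MonoidAlgebra.single z (1 : R) - 1) ^ m) * y2 := by noncomm_ring
            _ = (MonoidAlgebra.single z (1 : R) - 1) ^ (m + 1) * (y1 * y2) := by
                rw [hcomm, pow_succ']; noncomm_ring
      refine ⟨N * B', ?_⟩
      intro l hl
      obtain ⟨y, hy⟩ := step2 N l hl
      rw [hy, hN, zero_mul]

end Main

theorem aug_list_prod_eq_zero (p : ℕ) [Fact p.Prime] (R : Type*) [Ring R] [CharP R p]
    (P : Type*) [Group P] [Finite P] (hP : IsPGroup p P) :
    ∃ B : ℕ, ∀ l : List P, B ≤ l.length →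
      (l.map (fun q => (MonoidAlgebra.single q (1 : R) - 1 : MonoidAlgebra R P))).prod = 0 :=
  aug_aux p R (Nat.card P) P hP le_rfl

end Vale.Agent.Lib.P194.H96
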