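import Mathlib
import Vale.Agent.Lib.P194.H86.CentralP
import Vale.Agent.Lib.P194.helper96.AugNil
import Vale.Agent.Lib.P194.helper60.Sep

/-!
# P194 (backup copy by helper96): direct finiteness passes up extensions with residually-`p`
kernel in characteristic `p`

`R` a ring of prime characteristic `p`, `G` a group, `N` a normal subgroup of `G` that is
residually a finite `p`-group.  If `R[G ⧸ N]` is directly finite, so is `R[G]`.
-/

namespace Vale.Agent.Lib.P194.H96

open MonoidAlgebra

section

variable {R : Type*} [Ring R] {G : Type*} [Group G] (N : Subgroup G)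

/-- `n - 1` in the group algebra of `N`. -/
noncomputable def aN (n : N) : MonoidAlgebra R N := MonoidAlgebra.single n (1 : R) - 1

/-- The inclusion `R[N] → R[G]`. -/
noncomputable def iota : MonoidAlgebra R N →+* MonoidAlgebra R G :=
  MonoidAlgebra.mapDomainRingHom R N.subtype

theorem iota_aN (n : N) :
    iota (R := R) N (aN N n) = MonoidAlgebra.single (n : G) (1 : R) - 1 := by
  unfold iota aN
  rw [map_sub, map_one, MonoidAlgebra.mapDomainRingHom_apply, MonoidAlgebra.mapDomain_single]
  rfl

/-- The generators of the `m`-th layer: products of at least `m` factors `n - 1` (`n ∈ N`)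
times a monomial. -/
def Gen (m : ℕ) : Set (MonoidAlgebra R G) :=
  {y | ∃ (l : List N) (r : R) (g : G), m ≤ l.length ∧
    y = iota (R := R) N ((l.map (aN N)).prod) * MonoidAlgebra.single g r}

/-- The `m`-th layer. -/
noncomputable def T (m : ℕ) : AddSubmonoid (MonoidAlgebra R G) :=
  AddSubmonoid.closure (Gen (R := R) N m)

/-- Step (1): the kernel of `R[G] → R[G ⧸ N]` lies in the first layer. -/
theorem ker_le_T1 [N.Normal] (x : MonoidAlgebra R G)
    (hx : MonoidAlgebra.mapDomain (fun g : G => (QuotientGroup.mk g : G ⧸ N)) x = 0) :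
    x ∈ T (R := R) N 1 := by
  have key : ∀ y : MonoidAlgebra R G,
      y - MonoidAlgebra.mapDomain
        (fun g : G => Quotient.out (QuotientGroup.mk g : G ⧸ N)) y ∈ T (R := R) N 1 := by
    intro y
    induction y using MonoidAlgebra.induction_linear with
    | zero =>
      rw [MonoidAlgebra.mapDomain_zero, sub_zero]
      exact zero_mem _
    | add y₁ y₂ h₁ h₂ =>
      have e : y₁ + y₂ - MonoidAlgebra.mapDomain
            (fun g : G => Quotient.out (QuotientGroup.mk g : G ⧸ N)) (y₁ + y₂)
          = (y₁ - MonoidAlgebra.mapDomain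
            (fun g : G => Quotient.out (QuotientGroup.mk g : G ⧸ N)) y₁) +
            (y₂ - MonoidAlgebra.mapDomain
            (fun g : G => Quotient.out (QuotientGroup.mk g : G ⧸ N)) y₂) := by
        rw [MonoidAlgebra.mapDomain_add]; abel
      rw [e]
      exact add_mem h₁ h₂
    | single g r =>
      rw [MonoidAlgebra.mapDomain_single]
      set s : G := Quotient.out (QuotientGroup.mk g : G ⧸ N) with hs
      have hmk : (QuotientGroup.mk s : G ⧸ N) = QuotientGroup.mk g := Quotient.out_eq _
      have hz1 : s⁻¹ * g ∈ N := QuotientGroup.eq.mp hmk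
      have hz2 : g * s⁻¹ ∈ N := (Subgroup.Normal.mem_comm_iff inferInstance).mp hz1
      have e : MonoidAlgebra.single g r - MonoidAlgebra.single s r
          = iota (R := R) N (((([⟨g * s⁻¹, hz2⟩] : List N).map (aN N))).prod)
            * MonoidAlgebra.single s r := by
        rw [List.map_singleton, List.prod_singleton, iota_aN, sub_mul, one_mul,
          MonoidAlgebra.single_mul_single, one_mul, inv_mul_cancel_right]
      rw [e]
      exact AddSubmonoid.subset_closure ⟨[⟨g * s⁻¹, hz2⟩], r, s, by simp, rfl⟩
  have h := key x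
  rwa [Vale.Agent.Lib.P194.H86.mapDomain_out_eq_zero N x hx, sub_zero] at h

/-- Conjugation by `g` on the normal subgroup `N`. -/
def conjN [hN : N.Normal] (g : G) (n : N) : N := ⟨g * n * g⁻¹, hN.conj_mem n n.2 g⟩

/-- Moving a monomial to the right of a product of augmentation generators. -/
theorem single_mul_iota_prod [N.Normal] (g : G) (r : R) (l : List N) :
    MonoidAlgebra.single g r * iota (R := R) N ((l.map (aN N)).prod)
      = iota (R := R) N (((l.map (conjN N g)).map (aN N)).prod) * MonoidAlgebra.single g r := by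
  induction l with
  | nil => simp
  | cons n l ih =>
    have h1 : MonoidAlgebra.single g r * (MonoidAlgebra.single (n : G) (1 : R) - 1)
        = (MonoidAlgebra.single (g * n * g⁻¹) (1 : R) - 1) * MonoidAlgebra.single g r := by
      rw [mul_sub, sub_mul, MonoidAlgebra.single_mul_single, MonoidAlgebra.single_mul_single,
        mul_one, one_mul, mul_one, one_mul, inv_mul_cancel_right]
    have h2 : iota (R := R) N (aN N (conjN N g n))
        = MonoidAlgebra.single (g * n * g⁻¹) (1 : R) - 1 := by
      rw [iota_aN]; rfl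
    rw [List.map_cons, List.prod_cons, map_mul, iota_aN, ← mul_assoc, h1, mul_assoc, ih,
      List.map_cons, List.map_cons, List.prod_cons, map_mul, h2, mul_assoc]
    exact (mul_assoc _ _ _).symm

/-- Step (2): `T m * T 1 ⊆ T (m + 1)`. -/
theorem T_mul_T1 [N.Normal] (m : ℕ) {y y' : MonoidAlgebra R G} (hy : y ∈ T (R := R) N m)
    (hy' : y' ∈ T (R := R) N 1) : y * y' ∈ T (R := R) N (m + 1) := by
  have gen : ∀ z ∈ Gen (R := R) N 1, ∀ w ∈ T (R := R) N m, w * z ∈ T (R := R) N (m + 1) := by
    rintro z ⟨l', r', g', hl', rfl⟩ w hw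
    induction hw using AddSubmonoid.closure_induction with
    | mem w hwG =>
      obtain ⟨l, r, g, hl, rfl⟩ := hwG
      have e : iota (R := R) N ((l.map (aN N)).prod) * MonoidAlgebra.single g r
            * (iota (R := R) N ((l'.map (aN N)).prod) * MonoidAlgebra.single g' r')
          = iota (R := R) N (((l ++ l'.map (conjN N g)).map (aN N)).prod)
            * MonoidAlgebra.single (g * g') (r * r') := by
        rw [List.map_append, List.prod_append, map_mul, ← MonoidAlgebra.single_mul_single]
        calc iota (R := R) N ((l.map (aN N)).prod) * MonoidAlgebra.single g r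
              * (iota (R := R) N ((l'.map (aN N)).prod) * MonoidAlgebra.single g' r')
            = iota (R := R) N ((l.map (aN N)).prod)
              * (MonoidAlgebra.single g r * iota (R := R) N ((l'.map (aN N)).prod))
              * MonoidAlgebra.single g' r' := by noncomm_ring
          _ = iota (R := R) N ((l.map (aN N)).prod)
              * (iota (R := R) N (((l'.map (conjN N g)).map (aN N)).prod)
                * MonoidAlgebra.single g r) * MonoidAlgebra.single g' r' := by
              rw [single_mul_iota_prod]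
          _ = iota (R := R) N ((l.map (aN N)).prod)
              * iota (R := R) N (((l'.map (conjN N g)).map (aN N)).prod)
              * (MonoidAlgebra.single g r * MonoidAlgebra.single g' r') := by noncomm_ring
      rw [e]
      refine AddSubmonoid.subset_closure ⟨l ++ l'.map (conjN N g), r * r', g * g', ?_, rfl⟩
      rw [List.length_append, List.length_map]
      omega
    | zero => rw [zero_mul]; exact zero_mem _
    | add a b _ _ ha hb => rw [add_mul]; exact add_mem ha hb
  induction hy' using AddSubmonoid.closure_induction with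
  | mem z hz => exact gen z hz y hy
  | zero => rw [mul_zero]; exact zero_mem _
  | add a b _ _ ha hb => rw [mul_add]; exact add_mem ha hb

/-- Step (3): an idempotent of the first layer lies in every layer. -/
theorem idem_mem_T [N.Normal] {x : MonoidAlgebra R G} (hx1 : x ∈ T (R := R) N 1)
    (hidem : x * x = x) : ∀ m : ℕ, x ∈ T (R := R) N (m + 1) := by
  intro m
  induction m with
  | zero => exact hx1
  | succ m ih =>
    have h := T_mul_T1 N (m + 1) ih hx1
    rwa [hidem] at h

/-- The layers are stable under right multiplication by group elements. -/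
theorem T_mul_single (m : ℕ) (s : G) {y : MonoidAlgebra R G} (hy : y ∈ T (R := R) N m) :
    y * MonoidAlgebra.single s (1 : R) ∈ T (R := R) N m := by
  induction hy using AddSubmonoid.closure_induction with
  | mem w hwG =>
    obtain ⟨l, r, g, hl, rfl⟩ := hwG
    rw [mul_assoc, MonoidAlgebra.single_mul_single, mul_one]
    exact AddSubmonoid.subset_closure ⟨l, r, g * s, hl, rfl⟩
  | zero => rw [zero_mul]; exact zero_mem _
  | add a b _ _ ha hb => rw [add_mul]; exact add_mem ha hb

end

section Functional

variable {R : Type*} [Ring R] {G : Type*} [Group G] (N : Subgroup G)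
  {P : Type*} [Group P] (f : N →* P)

open Classical in
/-- Restrict to `N` and push forward along `f : N → P`. -/
noncomputable def phi : MonoidAlgebra R G →+ MonoidAlgebra R P :=
  (Finsupp.liftAddHom (fun g : G =>
    if h : g ∈ N then (MonoidAlgebra.singleAddHom (f ⟨g, h⟩) : R →+ MonoidAlgebra R P) else 0)).comp
    (MonoidAlgebra.coeffAddEquiv : MonoidAlgebra R G ≃+ (G →₀ R)).toAddMonoidHom

theorem phi_single_mem (g : G) (r : R) (h : g ∈ N) :
    phi (R := R) N f (MonoidAlgebra.single g r) = MonoidAlgebra.single (f ⟨g, h⟩) r := by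
  unfold phi
  rw [AddMonoidHom.comp_apply]
  change (Finsupp.liftAddHom _) (Finsupp.single g r) = _
  rw [Finsupp.liftAddHom_apply_single, dif_pos h]
  rfl

theorem phi_single_not_mem (g : G) (r : R) (h : g ∉ N) :
    phi (R := R) N f (MonoidAlgebra.single g r) = 0 := by
  unfold phi
  rw [AddMonoidHom.comp_apply]
  change (Finsupp.liftAddHom _) (Finsupp.single g r) = _
  rw [Finsupp.liftAddHom_apply_single, dif_neg h]
  rfl

/-- `phi` on an element of `R[N]` times a monomial. -/
theorem phi_iota_mul_single (V : MonoidAlgebra R N) (g : G) (r : R) :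
    (∀ h : g ∈ N, phi (R := R) N f (iota (R := R) N V * MonoidAlgebra.single g r)
      = MonoidAlgebra.mapDomainRingHom R f V * MonoidAlgebra.single (f ⟨g, h⟩) r) ∧
    (g ∉ N → phi (R := R) N f (iota (R := R) N V * MonoidAlgebra.single g r) = 0) := by
  induction V using MonoidAlgebra.induction_linear with
  | zero =>
    refine ⟨fun h => ?_, fun h => ?_⟩ <;> simp
  | add V₁ V₂ h₁ h₂ =>
    refine ⟨fun h => ?_, fun h => ?_⟩
    · rw [map_add, add_mul, map_add, h₁.1 h, h₂.1 h, map_add, add_mul]
    · rw [map_add, add_mul, map_add, h₁.2 h, h₂.2 h, add_zero]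
  | single n s =>
    have e : iota (R := R) N (MonoidAlgebra.single n s) * MonoidAlgebra.single g r
        = MonoidAlgebra.single ((n : G) * g) (s * r) := by
      unfold iota
      rw [MonoidAlgebra.mapDomainRingHom_apply, MonoidAlgebra.mapDomain_single,
        MonoidAlgebra.single_mul_single]
      rfl
    refine ⟨fun h => ?_, fun h => ?_⟩
    · have hmem : (n : G) * g ∈ N := N.mul_mem n.2 h
      rw [e, phi_single_mem N f _ _ hmem, MonoidAlgebra.mapDomainRingHom_apply,
        MonoidAlgebra.mapDomain_single, MonoidAlgebra.single_mul_single, ← map_mul]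
      rfl
    · have hmem : (n : G) * g ∉ N := by
        intro hc
        apply h
        have := N.mul_mem (N.inv_mem n.2) hc
        rwa [inv_mul_cancel_left] at this
      rw [e, phi_single_not_mem N f _ _ hmem]

/-- The coefficient of `phi y` at `1`, when `f` separates the support of `y` from `1`. -/
theorem phi_coeff_one (y : MonoidAlgebra R G)
    (hsep : ∀ g ∈ y.coeff.support, ∀ h : g ∈ N, g ≠ 1 → f ⟨g, h⟩ ≠ 1) :
    (phi (R := R) N f y).coeff 1 = y.coeff 1 := by
  classical
  have hy : y = ∑ g ∈ y.coeff.support, MonoidAlgebra.single g (y.coeff g) := by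
    conv_lhs => rw [← MonoidAlgebra.sum_coeff_single y]
    rfl
  have h1 : phi (R := R) N f y
      = ∑ g ∈ y.coeff.support, phi (R := R) N f (MonoidAlgebra.single g (y.coeff g)) := by
    conv_lhs => rw [hy]
    rw [map_sum]
  rw [h1, MonoidAlgebra.coeff_sum, Finsupp.finsetSum_apply]
  rw [Finset.sum_eq_single (1 : G)]
  · rw [phi_single_mem N f 1 _ N.one_mem]
    have : (⟨1, N.one_mem⟩ : N) = 1 := rfl
    rw [this, map_one f, MonoidAlgebra.coeff_single, Finsupp.single_eq_same]
  · intro g hg hg1
    by_cases h : g ∈ N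
    · rw [phi_single_mem N f g _ h, MonoidAlgebra.coeff_single,
        Finsupp.single_eq_of_ne (hsep g hg h hg1).symm]
    · rw [phi_single_not_mem N f g _ h]
      rfl
  · intro h1s
    have : y.coeff 1 = 0 := Finsupp.notMem_support_iff.mp h1s
    rw [this, MonoidAlgebra.single_zero, map_zero]
    rfl

/-- Step (6): `phi` kills the layer `T m` as soon as products of `m` augmentation generators
vanish in `R[P]`. -/
theorem phi_T_eq_zero (B : ℕ)
    (hB : ∀ l : List P, B ≤ l.length →
      (l.map (fun q => (MonoidAlgebra.single q (1 : R) - 1 : MonoidAlgebra R P))).prod = 0)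
    (m : ℕ) (hm : B ≤ m) {y : MonoidAlgebra R G} (hy : y ∈ T (R := R) N m) :
    phi (R := R) N f y = 0 := by
  induction hy using AddSubmonoid.closure_induction with
  | mem w hwG =>
    obtain ⟨l, r, g, hl, rfl⟩ := hwG
    have hV : MonoidAlgebra.mapDomainRingHom R f ((l.map (aN N)).prod) = 0 := by
      have h0 := hB (l.map f) (by rw [List.length_map]; omega)
      rw [map_list_prod, List.map_map]
      rw [List.map_map] at h0
      rw [← h0]
      congr 1
      apply List.map_congr_left
      intro n _
      simp only [Function.comp_apply]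
      unfold aN
      rw [map_sub, map_one, MonoidAlgebra.mapDomainRingHom_apply, MonoidAlgebra.mapDomain_single]
    by_cases h : g ∈ N
    · rw [(phi_iota_mul_single N f _ g r).1 h, hV, zero_mul]
    · exact (phi_iota_mul_single N f _ g r).2 h
  | zero => exact map_zero _
  | add a b _ _ ha hb => rw [map_add, ha, hb, add_zero]

end Functional

/-- Steps (4)-(6): an element lying in every layer is zero, when `N` is residually a finite
`p`-group and `R` has characteristic `p`. -/
theorem eq_zero_of_forall_mem_T (p : ℕ) [Fact p.Prime] (R : Type*) [Ring R] [CharP R p]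
    {G : Type*} [Group G] (N : Subgroup G)
    (hres : ∀ x : N, x ≠ 1 → ∃ (P : Type) (_ : Group P) (_ : Finite P) (f : N →* P),
      IsPGroup p P ∧ f x ≠ 1)
    (y : MonoidAlgebra R G) (hyT : ∀ m : ℕ, y ∈ T (R := R) N (m + 1)) : y = 0 := by
  by_contra hx0
  obtain ⟨s, hs⟩ : ∃ s, y.coeff s ≠ 0 := by
    by_contra hcon
    apply hx0
    apply MonoidAlgebra.coeff_injective
    ext s
    by_contra hs
    exact hcon ⟨s, hs⟩
  have hx'1 : (y * MonoidAlgebra.single s⁻¹ (1 : R)).coeff 1 = y.coeff s := by
    rw [MonoidAlgebra.coeff_mul_single_apply, inv_inv, one_mul, mul_one]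
  classical
  let D : Finset N :=
    (((y * MonoidAlgebra.single s⁻¹ (1 : R)).coeff.support).subtype (· ∈ N)).filter (· ≠ 1)
  have hD : ∀ d ∈ D, d ≠ 1 := fun d hd => (Finset.mem_filter.mp hd).2
  obtain ⟨P, hPG, hPF, f, hPp, hf⟩ := Vale.Agent.Lib.P194.H60.exists_sep p N hres D hD
  obtain ⟨B, hB⟩ := aug_list_prod_eq_zero p R P hPp
  have hx'T : y * MonoidAlgebra.single s⁻¹ (1 : R) ∈ T (R := R) N (B + 1) :=
    T_mul_single N (B + 1) s⁻¹ (hyT B)
  have hphi : phi (R := R) N f (y * MonoidAlgebra.single s⁻¹ (1 : R)) = 0 :=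
    phi_T_eq_zero N f B hB (B + 1) (by omega) hx'T
  have hcoef := phi_coeff_one (R := R) N f (y * MonoidAlgebra.single s⁻¹ (1 : R))
    (by
      intro g hg h hg1
      apply hf ⟨g, h⟩
      rw [Finset.mem_filter, Finset.mem_subtype]
      exact ⟨hg, fun hc => hg1 (congrArg Subtype.val hc)⟩)
  rw [hphi, hx'1] at hcoef
  exact hs hcoef.symm

/-- **Extensions with residually-`p` kernel.** `R` a ring of prime characteristic `p`, `N` a
normal subgroup of `G` that is residually a finite `p`-group.  If `R[G ⧸ N]` is directly finite,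
then so is `R[G]`. -/
theorem resid_p_kernel (p : ℕ) [Fact p.Prime] (R : Type*) [Ring R] [CharP R p]
    (G : Type*) [Group G] (N : Subgroup G) [N.Normal]
    (hres : ∀ x : N, x ≠ 1 → ∃ (P : Type) (_ : Group P) (_ : Finite P) (f : N →* P),
      IsPGroup p P ∧ f x ≠ 1)
    (hQ : ∀ a b : MonoidAlgebra R (G ⧸ N), a * b = 1 → b * a = 1) :
    ∀ a b : MonoidAlgebra R G, a * b = 1 → b * a = 1 := by
  intro a b hab
  have h1 : MonoidAlgebra.mapDomainRingHom R (QuotientGroup.mk' N) a
      * MonoidAlgebra.mapDomainRingHom R (QuotientGroup.mk' N) b = 1 := by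
    rw [← map_mul, hab, map_one]
  have h2 := hQ _ _ h1
  have hker : MonoidAlgebra.mapDomainRingHom R (QuotientGroup.mk' N) (1 - b * a) = 0 := by
    rw [map_sub, map_one, map_mul, h2, sub_self]
  have hker' : MonoidAlgebra.mapDomain (fun g : G => (QuotientGroup.mk g : G ⧸ N))
      (1 - b * a) = 0 := hker
  have hidem : (1 - b * a) * (1 - b * a) = 1 - b * a := by
    have hb : b * a * (b * a) = b * a := by
      calc b * a * (b * a) = b * (a * b) * a := by noncomm_ring
        _ = b * a := by rw [hab, mul_one]
    calc (1 - b * a) * (1 - b * a) = 1 - b * a - b * a + b * a * (b * a) := by noncomm_ring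
      _ = 1 - b * a := by rw [hb]; abel
  have hx1 := ker_le_T1 (R := R) N (1 - b * a) hker'
  have hxT := idem_mem_T (R := R) N hx1 hidem
  have h0 := eq_zero_of_forall_mem_T p R N hres (1 - b * a) hxT
  exact (sub_eq_zero.mp h0).symm

/-- Matrix form: if `M_n(R[G ⧸ N])` is directly finite, then so is `M_n(R[G])`. -/
theorem resid_p_kernel_matrix (p : ℕ) [Fact p.Prime] (R : Type*) [Ring R] [CharP R p]
    (G : Type*) [Group G] (N : Subgroup G) [N.Normal]
    (hres : ∀ x : N, x ≠ 1 → ∃ (P : Type) (_ : Group P) (_ : Finite P) (f : N →* P),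
      IsPGroup p P ∧ f x ≠ 1)
    (n : ℕ)
    (hQ : ∀ A B : Matrix (Fin n) (Fin n) (MonoidAlgebra R (G ⧸ N)), A * B = 1 → B * A = 1) :
    ∀ A B : Matrix (Fin n) (Fin n) (MonoidAlgebra R G), A * B = 1 → B * A = 1 := by
  intro A B hAB
  have h1 : (MonoidAlgebra.mapDomainRingHom R (QuotientGroup.mk' N)).mapMatrix A
      * (MonoidAlgebra.mapDomainRingHom R (QuotientGroup.mk' N)).mapMatrix B = 1 := by
    rw [← map_mul, hAB, map_one]
  have h2 := hQ _ _ h1
  have hker : (MonoidAlgebra.mapDomainRingHom R (QuotientGroup.mk' N)).mapMatrix (1 - B * A)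
      = 0 := by
    rw [map_sub, map_one, map_mul, h2, sub_self]
  have hentries : ∀ i j, MonoidAlgebra.mapDomain (fun g : G => (QuotientGroup.mk g : G ⧸ N))
      ((1 - B * A) i j) = 0 := by
    intro i j
    have h := congrFun (congrFun hker i) j
    exact h
  have hidem : (1 - B * A) * (1 - B * A) = 1 - B * A := by
    have hb : B * A * (B * A) = B * A := by
      calc B * A * (B * A) = B * (A * B) * A := by noncomm_ring
        _ = B * A := by rw [hAB, mul_one]
    calc (1 - B * A) * (1 - B * A) = 1 - B * A - B * A + B * A * (B * A) := by noncomm_ring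
      _ = 1 - B * A := by rw [hb]; abel
  have hT1 : ∀ i j, (1 - B * A) i j ∈ T (R := R) N 1 :=
    fun i j => ker_le_T1 (R := R) N _ (hentries i j)
  have hT : ∀ m : ℕ, ∀ i j, (1 - B * A) i j ∈ T (R := R) N (m + 1) := by
    intro m
    induction m with
    | zero => exact hT1
    | succ m ih =>
      intro i j
      have e : (1 - B * A) i j = ∑ k, (1 - B * A) i k * (1 - B * A) k j := by
        conv_lhs => rw [← hidem]
        rw [Matrix.mul_apply]
      rw [e]
      exact sum_mem (fun k _ => T_mul_T1 N (m + 1) (ih i k) (hT1 k j))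
  have h0 : (1 - B * A : Matrix (Fin n) (Fin n) (MonoidAlgebra R G)) = 0 := by
    ext i j
    have := eq_zero_of_forall_mem_T p R N hres ((1 - B * A) i j) (fun m => hT m i j)
    rw [this]
    rfl
  exact (sub_eq_zero.mp h0).symm

end Vale.Agent.Lib.P194.H96
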